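import Crest.Agent.X277.BD.BrA
import Crest.Agent.X277.BD.Cyc
import Crest.Agent.X277.BD.Num2
import Crest.Agent.X277.Pst.Defs

/-!
# Row 262, SURF (helper50): language and statements of the surface packages

`F / ℂ` a function field of dimension two, `P : PModel ℂ F` a smooth model, `b : B2 F` a basis of
the differentials, `kP P b` the canonical divisor, `oP P` the hyperplane class.

* `h0`, `rr P b c a = 2 χ(a)`, `Chi P b c` (`c = χ(O)`) : `RRStmt`, `SerStmt`, `KVStmt`, `ChiBirStmt`;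
* `Dm Λ r`, `Nm Λ r` : the flag of determinant b-divisors of a matrix; `FlagStmt`, `UpStmt`, `LowStmt`;
* `Gen B m0 s` : the integral closure of `B` in a finite extension is generated by `s`;
  `GenStmt`, `PureStmt`, `MonoStmt`, `CmpStmt`;
* `DescStmt`, `NormStmt`, `HorStmt`, `Hor0Stmt`;
* `ThMinStmt`, `UnimStmt`, `EconStmt`.
-/

set_option autoImplicit false

noncomputable section

namespace Crest.Agent.X262.Surf

open Crest.Agent.X277 Crest.Agent.X277.Lef Crest.Agent.X277.AN.G1 Crest.Agent.X277.BD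
open Crest.Agent.X277.BD.Br Module Filter Finset
open Crest.Agent.X277.Pst (Prm)
open scoped KaehlerDifferential

/-- bases of the differentials of a surface -/
abbrev B2 (F : Type) [Field F] [Algebra ℂ F] : Type := Basis (Fin 2) F Ω[F⁄ℂ]

/-- the structure map of a tower -/
abbrev tw (E F : Type) [Field E] [Field F] [Algebra ℂ E] [Algebra ℂ F] [Algebra E F]
    [IsScalarTower ℂ E F] : E →ₐ[ℂ] F := IsScalarTower.toAlgHom ℂ E F

section One

variable {F : Type} [Field F] [Algebra ℂ F]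

/-- the number of sections -/
def h0 (a : BD ℂ F) : ℤ := (finrank ℂ a.Sec : ℕ)

/-- the b-divisor generated by the `r × r` minors of the first `r` rows -/
def Dm {n : ℕ} (Λ : ℕ → Fin n → F) (r : ℕ) : BD ℂ F :=
  mxf ℂ fun c : Fin r → Fin n => (Matrix.of fun i j : Fin r => Λ i (c j)).det

/-- the graded pieces of the flag -/
def Nm {n : ℕ} (Λ : ℕ → Fin n → F) (r : ℕ) : BD ℂ F := Dm Λ (r + 1) - Dm Λ r

/-- the first `k` rows are independent -/
def Rk {n : ℕ} (Λ : ℕ → Fin n → F) (k : ℕ) : Prop :=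
  ∃ c : Fin k → Fin n, (Matrix.of fun i j : Fin k => Λ i (c j)).det ≠ 0

/-- the span of the columns with coefficients in the sections of `y` -/
def colSp {n : ℕ} (Λ : ℕ → Fin n → F) (k : ℕ) (y : BD ℂ F) : Submodule ℂ (Fin k → F) :=
  Submodule.span ℂ {v | ∃ (j : Fin n) (τ : F), τ ∈ y.Sec ∧ v = fun i : Fin k => τ * Λ i j}

/-- the vectors which lie at every valuation in the span of the columns twisted by `y` -/
def latSec {n : ℕ} (Λ : ℕ → Fin n → F) (k : ℕ) (y : BD ℂ F) : Submodule ℂ (Fin k → F) where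
  carrier := {v | ∀ V : RZ ℂ F, ∃ τ : Fin n → F, (∀ j, V.v (τ j) ≤ y.val V) ∧
    ∀ i : Fin k, v i = ∑ j, τ j * Λ i j}
  add_mem' ha hb V := by
    obtain ⟨τ, h1, h2⟩ := ha V
    obtain ⟨τ', h3, h4⟩ := hb V
    refine ⟨τ + τ', fun j => (V.v.map_add _ _).trans (max_le (h1 j) (h3 j)), fun i => ?_⟩
    simp only [Pi.add_apply, h2, h4, add_mul, sum_add_distrib]
  zero_mem' V := ⟨0, fun j => by simp, fun i => by simp⟩
  smul_mem' c v hv V := by
    obtain ⟨τ, h1, h2⟩ := hv V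
    refine ⟨c • τ, fun j => (V.v_smul_le c _).trans (h1 j), fun i => ?_⟩
    simp only [Pi.smul_apply, h2, smul_sum, smul_mul_assoc]

variable [Algebra.EssFiniteType ℂ F]

/-- twice the Euler characteristic of `a`, if `c = χ(O)` -/
def rr (P : PModel ℂ F) (b : B2 F) (c : ℤ) (a : BD ℂ F) : ℤ := 2 * c + bnum [a, a - kP P b]

/-- Riemann-Roch holds on `P` with constant term `c` -/
def Chi (P : PModel ℂ F) (b : B2 F) (c : ℤ) : Prop :=
  ∀ a ∈ On P, ∀ᶠ m : ℕ in atTop, 2 * h0 (a + m • oP P) = rr P b c (a + m • oP P)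

end One

section Tower

variable {E F : Type} [Field E] [Field F] [Algebra ℂ E] [Algebra ℂ F]

/-- the basis `bF` is the image of the basis `bE` -/
def Cmp (α : E →ₐ[ℂ] F) (bE : B2 E) (bF : B2 F) : Prop :=
  ∀ a : Fin 2 → E, jac bF (fun l => α (a l)) = α (jac bE a)

/-- restriction of a valuation ring -/
abbrev rsV (α : E →ₐ[ℂ] F) (W : RZ ℂ F) : RZ ℂ E := cm (α : E →+* F) (alg_ov α) W

/-- `W` lies over a prime divisor of `B` -/
def Hor (B : PModel ℂ E) (α : E →ₐ[ℂ] F) (W : RZ ℂ F) : Prop := Prm (oP B) (rsV α W)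

variable [Algebra E F] [IsScalarTower ℂ E F]

/-- the sections `s` of `m0 H` generate the normalisation of `B` in `F` -/
structure Gen (B : PModel ℂ E) (m0 : ℕ) {n : ℕ} (s : Fin n → F) : Prop where
  mem : ∀ j, s j ∈ (m0 • pb (tw E F) (oP B)).Sec
  glob : ∀ m : ℕ, ∀ φ ∈ ((m0 + m) • pb (tw E F) (oP B)).Sec,
    ∃ τ : Fin n → E, (∀ j, τ j ∈ (m • oP B).Sec) ∧ φ = ∑ j, τ j • s j
  pt : ∀ (x : Pts B) (h : E), At (m0 • oP B) x h → ∀ φ : F, IsIntegral (lp x).O φ →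
    ∃ τ : Fin n → E, (∀ j, τ j ∈ (lp x).O) ∧ h • φ = ∑ j, τ j • s j
  prm : ∀ V : RZ ℂ E, Prm (oP B) V → ∀ h : E, V.v h = (m0 • oP B).val V → ∀ φ : F,
    IsIntegral V.1 φ → ∃ τ : Fin n → E, (∀ j, τ j ∈ V.1) ∧ h • φ = ∑ j, τ j • s j
  span : Submodule.span E (Set.range s) = ⊤

variable {Ω : Type} [Field Ω] [Algebra ℂ Ω] [Algebra E Ω] [IsScalarTower ℂ E Ω]

/-- the divisor along which the sheets `p` and `p'` meet -/
def xx (B : PModel ℂ E) (m0 : ℕ) {n : ℕ} (s : Fin n → F) (p p' : F →ₐ[E] Ω) : BD ℂ Ω :=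
  m0 • pb (tw E Ω) (oP B) - mxf ℂ fun j => p (s j) - p' (s j)

/-- the matrix of the conjugates of `s` -/
def cj {n : ℕ} (s : Fin n → F) (p : ℕ → F →ₐ[E] Ω) : ℕ → Fin n → Ω := fun i j => p i (s j)

omit [Algebra ℂ E] [Algebra ℂ F] [IsScalarTower ℂ E F] in
/-- the matrix of the coordinates of `s` -/
def crd {n k : ℕ} (w : Basis (Fin k) E F) (s : Fin n → F) : ℕ → Fin n → E :=
  fun i j => if h : i < k then w.repr (s j) ⟨i, h⟩ else 0

end Tower

/-! ### Riemann-Roch, duality, vanishing -/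

/-- Riemann-Roch and Serre vanishing -/
def RRStmt : Prop := ∀ (F : Type) [Field F] [Algebra ℂ F] [Algebra.EssFiniteType ℂ F]
  (P : PModel ℂ F) (b : B2 F), ∃ c, Chi P b c

/-- `χ(a) ≤ h⁰(a) + h⁰(K - a)` -/
def SerStmt : Prop := ∀ (F : Type) [Field F] [Algebra ℂ F] [Algebra.EssFiniteType ℂ F]
  (P : PModel ℂ F) (b : B2 F) (c : ℤ), Chi P b c → ∀ a ∈ On P,
    rr P b c a ≤ 2 * h0 a + 2 * h0 (kP P b - a)

/-- Kawamata-Viehweg (Ramanujam) vanishing -/
def KVStmt : Prop := ∀ (F : Type) [Field F] [Algebra ℂ F] [Algebra.EssFiniteType ℂ F]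
  (P : PModel ℂ F) (b : B2 F) (c : ℤ), Chi P b c → ∀ a ∈ On P, Nef a → Big a →
    2 * h0 (kP P b + a) ≤ rr P b c (kP P b + a)

/-- `χ(O)` is a birational invariant -/
def ChiBirStmt : Prop := ∀ (F : Type) [Field F] [Algebra ℂ F] [Algebra.EssFiniteType ℂ F]
  (P P' : PModel ℂ F) (b b' : B2 F) (c : ℤ), Chi P b c → Chi P' b' c

/-! ### vector bundles -/

/-- the second Chern character does not depend on the flag -/
def FlagStmt : Prop := ∀ (F : Type) [Field F] [Algebra ℂ F] [Algebra.EssFiniteType ℂ F]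
  (n k : ℕ) (Λ Λ' : ℕ → Fin n → F) (T : ℕ → ℕ → F), dim ℂ F = 2 → Rk Λ k → Rk Λ' k →
    (∀ i < k, ∀ j, Λ' i j = ∑ a ∈ range k, T i a * Λ a j) →
      Lin (Dm Λ' k) (Dm Λ k) ∧
        ∑ r ∈ range k, bnum [Nm Λ' r, Nm Λ' r] = ∑ r ∈ range k, bnum [Nm Λ r, Nm Λ r]

/-- upper bound for the sections which come from the generators -/
def UpStmt : Prop := ∀ (F : Type) [Field F] [Algebra ℂ F] [Algebra.EssFiniteType ℂ F]
  (P : PModel ℂ F) (b : B2 F) (c : ℤ) (n k : ℕ) (Λ : ℕ → Fin n → F) (H : BD ℂ F),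
    Chi P b c → Rk Λ k → (∀ r ≤ k, Dm Λ r ∈ On P) → H ∈ On P → Big H → ∀ᶠ m : ℕ in atTop,
      2 * (finrank ℂ (colSp Λ k (m • H)) : ℤ) ≤ ∑ r ∈ range k, rr P b c (Nm Λ r + m • H) +
        n * (2 * h0 (m • H) - rr P b c (m • H))

/-- lower bound for the sections -/
def LowStmt : Prop := ∀ (F : Type) [Field F] [Algebra ℂ F] [Algebra.EssFiniteType ℂ F]
  (P : PModel ℂ F) (b : B2 F) (c : ℤ) (n k : ℕ) (Λ : ℕ → Fin n → F) (H : BD ℂ F),
    Chi P b c → Rk Λ k → (∀ r ≤ k, Dm Λ r ∈ On P) → H ∈ On P → Big H → ∀ᶠ m : ℕ in atTop,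
      ∑ r ∈ range k, rr P b c (Nm Λ r + m • H) ≤ 2 * (finrank ℂ (latSec Λ k (m • H)) : ℤ)

/-! ### finite extensions -/

/-- the normalisation is finite -/
def GenStmt : Prop := ∀ (E F : Type) [Field E] [Field F] [Algebra ℂ E] [Algebra ℂ F] [Algebra E F]
  [IsScalarTower ℂ E F] [Algebra.EssFiniteType ℂ E] [FiniteDimensional E F] (B : PModel ℂ E),
    ∃ (m0 n : ℕ) (s : Fin n → F), Gen B m0 s

/-- the normalisation is locally free over a smooth surface -/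
def PureStmt : Prop := ∀ (E F : Type) [Field E] [Field F] [Algebra ℂ E] [Algebra ℂ F] [Algebra E F]
  [IsScalarTower ℂ E F] [Algebra.EssFiniteType ℂ E] (B : PModel ℂ E) (_ : B2 E) (m0 n k : ℕ)
  (s : Fin n → F) (w : Basis (Fin k) E F), Gen B m0 s → Dm (crd w s) k ∈ On B

/-- bases of the differentials stay bases in a finite extension -/
def CmpStmt : Prop := ∀ (E F : Type) [Field E] [Field F] [Algebra ℂ E] [Algebra ℂ F] [Algebra E F]
  [IsScalarTower ℂ E F] [FiniteDimensional E F] (bE : B2 E), ∃ bF : B2 F, Cmp (tw E F) bE bF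

/-- in codimension one the normalisation is monogenic: Vandermonde determinants and the
different -/
def MonoStmt : Prop := ∀ (E F Ω : Type) [Field E] [Field F] [Field Ω] [Algebra ℂ E] [Algebra ℂ F]
  [Algebra ℂ Ω] [Algebra E F] [IsScalarTower ℂ E F] [Algebra E Ω] [IsScalarTower ℂ E Ω]
  [Algebra.EssFiniteType ℂ E] [FiniteDimensional E F] [FiniteDimensional E Ω]
  (B : PModel ℂ E) (P : PModel ℂ F) (bE : B2 E) (bF : B2 F) (m0 n : ℕ) (s : Fin n → F)
  (p : ℕ → F →ₐ[E] Ω) (W : RZ ℂ Ω), Gen B m0 s → Cmp (tw E F) bE bF →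
    pb (tw E F) (oP B) ∈ On P → Set.InjOn p (Set.Iio (finrank E F)) → Hor B (tw E Ω) W →
      (∀ r < finrank E F, (Nm (cj s p) r + ∑ a ∈ range r, xx B m0 s (p a) (p r)).val W =
        (m0 • pb (tw E Ω) (oP B)).val W) ∧
      ∀ i < finrank E F, (pb ((p i).restrictScalars ℂ) (kP P bF)).val W ≤
        (pb (tw E Ω) (kP B bE) +
          ∑ a ∈ (range (finrank E F)).erase i, xx B m0 s (p a) (p i)).val W

/-- Galois descent of b-divisors -/
def DescStmt : Prop := ∀ (E Ω : Type) [Field E] [Field Ω] [Algebra ℂ E] [Algebra ℂ Ω] [Algebra E Ω]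
  [IsScalarTower ℂ E Ω] [FiniteDimensional E Ω] [IsGalois E Ω] (a : BD ℂ Ω),
    (∀ σ : Ω ≃ₐ[E] Ω, pb ((σ : Ω →ₐ[E] Ω).restrictScalars ℂ) a = a) →
      ∃ (m : ℕ) (Θ : BD ℂ E), 0 < m ∧ pb (tw E Ω) Θ = m • a ∧ (Nef a → Nef Θ)

/-- push-forward of divisors -/
def NormStmt : Prop := ∀ (E F : Type) [Field E] [Field F] [Algebra ℂ E] [Algebra ℂ F]
  [Algebra.EssFiniteType ℂ E] [Algebra.EssFiniteType ℂ F] (α : E →ₐ[ℂ] F) (B : PModel ℂ E)
  (_ : B2 E) (a : BD ℂ F), dim ℂ F = 2 →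
    ∃ A ∈ On B, ∀ y ∈ On B, bnum [a, pb α y] = bnum [A, y]

/-- a nef class which is dominated by a class from `B` only sees the primes over primes of `B` -/
def HorStmt : Prop := ∀ (E F : Type) [Field E] [Field F] [Algebra ℂ E] [Algebra ℂ F]
  [Algebra.EssFiniteType ℂ E] [Algebra.EssFiniteType ℂ F] (α : E →ₐ[ℂ] F) (B : PModel ℂ E)
  (_ : B2 E) (y l l' : BD ℂ F) (Θ : BD ℂ E) (m : ℕ), dim ℂ F = 2 → Nef l → Nef l' → Θ ∈ On B →
    0 < m → NumZ (m • (l + l') - pb α Θ) → (∀ W, Hor B α W → 1 ≤ y.val W) → 0 ≤ bnum [y, l]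

/-- a divisor which is effective over the primes of `B` and has degree zero is trivial there -/
def Hor0Stmt : Prop := ∀ (E F : Type) [Field E] [Field F] [Algebra ℂ E] [Algebra ℂ F]
  [Algebra.EssFiniteType ℂ E] [Algebra.EssFiniteType ℂ F] (α : E →ₐ[ℂ] F) (B : PModel ℂ E)
  (_ : B2 E) (y : BD ℂ F), dim ℂ F = 2 → (∀ W, Hor B α W → 1 ≤ y.val W) →
    bnum [y, pb α (oP B)] ≤ 0 → ∀ W, Hor B α W → y.val W = 1

/-! ### the choice of the base -/

/-- a model without `Θ`-null `(-1)`-curves (Castelnuovo) -/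
def ThMinStmt : Prop := ∀ (E : Type) [Field E] [Algebra ℂ E] [Algebra.EssFiniteType ℂ E]
  (b : B2 E) (Θ : BD ℂ E) (m : ℕ), Nef Θ → Big Θ → (∀ a, (m : ℤ) ∣ bnum [Θ, a]) →
    ∃ B : PModel ℂ E, Θ ∈ On B ∧ ∀ i j : ℕ, i ≤ j * m → Psef (i • kP B b + j • Θ) →
      Nef (i • kP B b + j • Θ)

/-- if `p_g = 0` the lattice of numerical classes is unimodular -/
def UnimStmt : Prop := ∀ (E : Type) [Field E] [Algebra ℂ E] [Algebra.EssFiniteType ℂ E]
  (B : PModel ℂ E) (b : B2 E) (Θ : BD ℂ E) (m : ℕ), ¬ Eff (kP B b) → Θ ∈ On B →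
    (∀ a ∈ On B, (m : ℤ) ∣ bnum [Θ, a]) → ∃ θ ∈ On B, NumZ (Θ - m • θ)

/-- the economical base: `K + 6 θ` is nef -/
def EconStmt : Prop := ∀ (E : Type) [Field E] [Algebra ℂ E] [Algebra.EssFiniteType ℂ E]
  (b : B2 E) (Θ : BD ℂ E) (m : ℕ), 0 < m → (∀ B : PModel ℂ E, ¬ Eff (kP B b)) → Nef Θ → Big Θ →
    (∀ a, (m : ℤ) ∣ bnum [Θ, a]) → ∃ B : PModel ℂ E, Θ ∈ On B ∧ Nef (m • kP B b + 6 • Θ)

end Crest.Agent.X262.Surf
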