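import Crest.Agent.X262.Surf.Defs
import Crest.Agent.X262.Hor83.Main
import Crest.Agent.X262.Gal71.Desc

/-!
# Row 262, SURF (helper50), part 3: determinant divisors, coordinates and conjugates
-/

set_option autoImplicit false

noncomputable section

namespace Crest.Agent.X262.Surf

open Crest.Agent.X277 Crest.Agent.X277.Lef Crest.Agent.X277.AN.G1 Crest.Agent.X277.BD
open Crest.Agent.X277.BD.Br Module Filter Finset
open Crest.Agent.X262.Gal71 (sh pb_sh_inc)

section One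

variable {F : Type} [Field F] [Algebra ℂ F] {n : ℕ}

theorem mxf_neg {ι : Type} [Fintype ι] (s : ι → F) : mxf ℂ (fun i => -s i) = mxf ℂ s := by
  by_cases h : ∃ i, s i ≠ 0
  · refine (eq_mxf (fun i V => ?_) fun V => ?_).symm
    · rw [Valuation.map_neg]
      exact mem_Sec_mxf s i V
    · simpa only [Valuation.map_neg] using exists_val_mxf h V
  · push Not at h
    congr 1
    funext i
    rw [h i, neg_zero]

theorem mxf_le {ι : Type} [Fintype ι] {s : ι → F} {a : BD ℂ F} (h0 : ∃ i, s i ≠ 0)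
    (h : ∀ i, s i ∈ a.Sec) : mxf ℂ s ≤ a := fun V => by
  obtain ⟨i, hi⟩ := exists_val_mxf (k := ℂ) h0 V
  exact hi ▸ h i V

theorem mxf_mul {ι : Type} [Fintype ι] {s : ι → F} (h0 : ∃ i, s i ≠ 0) {δ : F} (hδ : δ ≠ 0) :
    mxf ℂ (fun i => δ * s i) = mxf ℂ s + pr ℂ δ := by
  refine (eq_mxf (fun i => ?_) fun V => ?_).symm
  · rw [mul_comm]
    exact mul_mem_Sec (mem_Sec_mxf s i) (mem_Sec_pr δ)
  · obtain ⟨i, hi⟩ := exists_val_mxf (k := ℂ) h0 V
    exact ⟨i, by rw [map_mul, val_add, val_pr hδ, hi, mul_comm]⟩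

theorem Dm_zero (Λ : ℕ → Fin n → F) : Dm Λ 0 = 0 :=
  (eq_mxf (fun c => by simpa using one_mem_Sec) fun V => ⟨Fin.elim0, by simp⟩).symm

theorem sum_Nm (Λ : ℕ → Fin n → F) (k : ℕ) : ∑ r ∈ range k, Nm Λ r = Dm Λ k := by
  unfold Nm
  rw [sum_range_sub, Dm_zero, sub_zero]

theorem nef_Dm (Λ : ℕ → Fin n → F) (k : ℕ) : Nef (Dm Λ k) := (free_mxf _).nef

omit [Algebra ℂ F] in
/-- Laplace expansion along the last row -/
theorem det_succ (Λ : ℕ → Fin n → F) (r : ℕ) (c : Fin (r + 1) → Fin n) :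
    (Matrix.of fun i j : Fin (r + 1) => Λ i (c j)).det = ∑ j : Fin (r + 1),
      (-1) ^ (r + j : ℕ) * Λ r (c j) *
        (Matrix.of fun i l : Fin r => Λ i (c (j.succAbove l))).det := by
  rw [Matrix.det_succ_row _ (Fin.last r)]
  refine sum_congr rfl fun j _ => ?_
  congr 2
  ext i l
  simp [Fin.succAbove_last]

theorem Rk.of_succ {Λ : ℕ → Fin n → F} {r : ℕ} (h : Rk Λ (r + 1)) : Rk Λ r := by
  obtain ⟨c, hc⟩ := h
  rw [det_succ] at hc
  obtain ⟨j, -, hj⟩ := exists_ne_zero_of_sum_ne_zero hc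
  exact ⟨fun l => c (j.succAbove l), right_ne_zero_of_mul hj⟩

theorem Rk.of_le {Λ : ℕ → Fin n → F} {r k : ℕ} (h : Rk Λ k) (hr : r ≤ k) : Rk Λ r := by
  induction hr with
  | refl => exact h
  | step _ ih => exact ih h.of_succ

theorem Nm_le {Λ : ℕ → Fin n → F} {r : ℕ} {a : BD ℂ F} (h : Rk Λ (r + 1))
    (ha : ∀ j, Λ r j ∈ a.Sec) : Nm Λ r ≤ a := by
  rw [Nm, sub_le_iff_le_add]
  refine mxf_le h fun c => ?_
  rw [det_succ]
  refine Submodule.sum_mem _ fun j _ => ?_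
  rw [mul_assoc]
  have h1 := mul_mem_Sec (ha (c j)) (mem_Sec_mxf (k := ℂ)
    (fun c : Fin r → Fin n => (Matrix.of fun i j : Fin r => Λ i (c j)).det)
      fun l => c (j.succAbove l))
  rcases neg_one_pow_eq_or F (r + j) with h2 | h2 <;> rw [h2]
  · rwa [one_mul]
  · rw [neg_one_mul]
    exact neg_mem h1

instance fin_colSp [Algebra.EssFiniteType ℂ F] (Λ : ℕ → Fin n → F) (k : ℕ) (y : BD ℂ F) :
    FiniteDimensional ℂ (colSp Λ k y) := by
  let f : Fin n → F →ₗ[ℂ] (Fin k → F) := fun j => LinearMap.pi fun i => LinearMap.mulRight ℂ (Λ i j)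
  refine Submodule.finiteDimensional_of_le (S₂ := ⨆ j, y.Sec.map (f j)) (Submodule.span_le.2 ?_)
  rintro _ ⟨j, τ, h, rfl⟩
  exact Submodule.mem_iSup_of_mem j ⟨τ, h, rfl⟩

variable [Algebra.EssFiniteType ℂ F]

theorem h0_eq_zero {a l : BD ℂ F} (hl : Nef l) (h : bnum [a, l] < 0) : h0 a = 0 := by
  by_contra h1
  have h2 : Eff a := eff_iff_finrank.2 (Nat.pos_of_ne_zero fun h2 => h1 (by rw [h0, h2]; rfl))
  exact absurd (h2.bnum_nonneg (l := [l]) (by simpa using hl)) (not_le.2 h)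

theorem bnum_sum2 {ι : Type} (x : BD ℂ F) (s : Finset ι) (a : ι → BD ℂ F) :
    bnum [x, ∑ i ∈ s, a i] = ∑ i ∈ s, bnum [x, a i] := by
  rw [bnum_swap, bnum_sum]
  exact sum_congr rfl fun i _ => bnum_swap _ _ _

theorem oP_sq_pos (P : PModel ℂ F) (b : B2 F) : 0 < bnum [oP P, oP P] :=
  bnum_pos (Hor83.dim_two b).symm (by
    simpa using ⟨free_oP.nef, (Hor83.isMod_oP P).big⟩)

end One

section Pb

variable {E F : Type} [Field E] [Field F] [Algebra ℂ E] [Algebra ℂ F] {n : ℕ}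

theorem map_det (α : E →ₐ[ℂ] F) (Λ : ℕ → Fin n → E) (r : ℕ) (c : Fin r → Fin n) :
    α (Matrix.of fun i j : Fin r => Λ i (c j)).det =
      (Matrix.of fun i j : Fin r => α (Λ i (c j))).det := by
  rw [AlgHom.map_det]
  rfl

theorem pb_Dm (α : E →ₐ[ℂ] F) (Λ : ℕ → Fin n → E) (r : ℕ) :
    pb α (Dm Λ r) = Dm (fun i j => α (Λ i j)) r := by
  simp only [Dm, pb_mxf, map_det]

theorem pb_Nm (α : E →ₐ[ℂ] F) (Λ : ℕ → Fin n → E) (r : ℕ) :
    pb α (Nm Λ r) = Nm (fun i j => α (Λ i j)) r := by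
  simp only [Nm, map_sub, pb_Dm]

theorem Rk.map {Λ : ℕ → Fin n → E} {r : ℕ} (h : Rk Λ r) (α : E →ₐ[ℂ] F) :
    Rk (fun i j => α (Λ i j)) r := by
  obtain ⟨c, hc⟩ := h
  exact ⟨c, by rw [← map_det]; exact (map_ne_zero α).2 hc⟩

theorem bnum_pb2 [Algebra.EssFiniteType ℂ E] [Algebra.EssFiniteType ℂ F] (α : E →ₐ[ℂ] F)
    (a b : BD ℂ E) : bnum [pb α a, pb α b] = deg α * bnum [a, b] := bnum_pb α [a, b]

end Pb

section Tower

variable {E F Ω : Type} [Field E] [Field F] [Field Ω] [Algebra ℂ E] [Algebra ℂ F] [Algebra ℂ Ω]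
  [Algebra E F] [IsScalarTower ℂ E F] [Algebra E Ω] [IsScalarTower ℂ E Ω]
  {B : PModel ℂ E} {m0 n k : ℕ} {s : Fin n → F}

omit [Algebra ℂ E] [Algebra ℂ F] [IsScalarTower ℂ E F] in
theorem crd_fin (w : Basis (Fin k) E F) (s : Fin n → F) (i : Fin k) (j : Fin n) :
    crd w s i j = w.repr (s j) i := dif_pos i.2

omit [Algebra ℂ E] [Algebra ℂ F] [IsScalarTower ℂ E F] in
theorem rk_crd (w : Basis (Fin k) E F) (hs : Submodule.span E (Set.range s) = ⊤) :
    Rk (crd w s) k := by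
  classical
  obtain ⟨κ, a, -, h1, h2⟩ := exists_linearIndependent' E s
  let b : Basis κ E F := Basis.mk h2 (by rw [h1, hs])
  let e : κ ≃ Fin k := b.indexEquiv w
  refine ⟨fun j => a (e.symm j), ?_⟩
  have h3 := (w.isUnit_det (b.reindex e)).ne_zero
  rw [Basis.det_apply] at h3
  convert h3 using 2
  ext i j
  simp [crd_fin, Basis.toMatrix_apply, b]

/-- the conjugates of the basis -/
def tm (w : Basis (Fin k) E F) (p : ℕ → F →ₐ[E] Ω) (i a : ℕ) : Ω :=
  if h : a < k then p i (w ⟨a, h⟩) else 0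

omit [Algebra ℂ F] [IsScalarTower ℂ E F] in
theorem cj_eq (w : Basis (Fin k) E F) (s : Fin n → F) (p : ℕ → F →ₐ[E] Ω) (i : ℕ) (j : Fin n) :
    cj s p i j = ∑ a ∈ range k, tm w p i a * tw E Ω (crd w s a j) := by
  rw [sum_range, cj]
  conv_lhs => rw [← w.sum_repr (s j)]
  rw [map_sum]
  refine sum_congr rfl fun a _ => ?_
  rw [crd_fin, tm, dif_pos a.2, map_smul, Algebra.smul_def, mul_comm]
  rfl

omit [Algebra ℂ E] [Algebra ℂ F] [Algebra ℂ Ω] [IsScalarTower ℂ E F] [IsScalarTower ℂ E Ω] in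
theorem det_tm_ne (w : Basis (Fin k) E F) {p : ℕ → F →ₐ[E] Ω} (hp : Set.InjOn p (Set.Iio k)) :
    (Matrix.of fun i a : Fin k => tm w p i a).det ≠ 0 := by
  intro h
  obtain ⟨v, hv, h1⟩ := Matrix.exists_vecMul_eq_zero_iff.2 h
  have h2 : LinearIndependent Ω fun i : Fin k => (p i).toLinearMap :=
    (linearIndependent_algHom_toLinearMap E F Ω).comp (fun i : Fin k => p i)
      fun i j hij => Fin.ext (hp i.2 j.2 hij)
  refine hv (funext (Fintype.linearIndependent_iff.1 h2 v (w.ext fun a => ?_)))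
  have h3 := congrFun h1 a
  simp only [Matrix.vecMul, dotProduct, Matrix.of_apply, tm, dif_pos a.2, Pi.zero_apply] at h3
  simpa [LinearMap.sum_apply] using h3

omit [Algebra ℂ F] [IsScalarTower ℂ E F] in
theorem det_cj (w : Basis (Fin k) E F) (s : Fin n → F) (p : ℕ → F →ₐ[E] Ω) (c : Fin k → Fin n) :
    (Matrix.of fun i j : Fin k => cj s p i (c j)).det =
      (Matrix.of fun i a : Fin k => tm w p i a).det *
        (Matrix.of fun i j : Fin k => tw E Ω (crd w s i (c j))).det := by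
  rw [← Matrix.det_mul]
  congr 1
  ext i j
  simp only [Matrix.of_apply, Matrix.mul_apply, cj_eq w, sum_range]

omit [Algebra ℂ F] [IsScalarTower ℂ E F] in
theorem rk_cj (w : Basis (Fin k) E F) (hs : Submodule.span E (Set.range s) = ⊤)
    {p : ℕ → F →ₐ[E] Ω} (hp : Set.InjOn p (Set.Iio k)) : Rk (cj s p) k := by
  obtain ⟨c, hc⟩ := (rk_crd w hs).map (tw E Ω)
  exact ⟨c, by rw [det_cj w]; exact mul_ne_zero (det_tm_ne w hp) hc⟩

omit [Algebra ℂ F] [IsScalarTower ℂ E F] in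
theorem Dm_cj (w : Basis (Fin k) E F) (hs : Submodule.span E (Set.range s) = ⊤)
    {p : ℕ → F →ₐ[E] Ω} (hp : Set.InjOn p (Set.Iio k)) : Dm (cj s p) k =
      pb (tw E Ω) (Dm (crd w s) k) + pr ℂ (Matrix.of fun i a : Fin k => tm w p i a).det := by
  rw [pb_Dm, Dm, Dm, ← mxf_mul ((rk_crd w hs).map (tw E Ω)) (det_tm_ne w hp)]
  simp only [det_cj w]

theorem Gen.cj_mem (h : Gen B m0 s) (p : F →ₐ[E] Ω) (j : Fin n) :
    p (s j) ∈ (m0 • pb (tw E Ω) (oP B)).Sec := by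
  have h1 := pb_mem_Sec (α := sh ℂ p) (h.mem j)
  rwa [map_nsmul, pb_sh_inc] at h1

theorem Gen.xx_nonneg (h : Gen B m0 s) {p p' : F →ₐ[E] Ω} (hp : p ≠ p') :
    0 ≤ xx B m0 s p p' := by
  refine sub_nonneg.2 (mxf_le ?_ fun j => sub_mem (h.cj_mem p j) (h.cj_mem p' j))
  by_contra h1
  push Not at h1
  refine hp (AlgHom.toLinearMap_injective (LinearMap.ext_on_range h.span fun j => ?_))
  exact sub_eq_zero.1 (h1 j)

omit [Algebra ℂ F] [IsScalarTower ℂ E F] in
theorem xx_comm (p p' : F →ₐ[E] Ω) : xx B m0 s p p' = xx B m0 s p' p := by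
  rw [xx, xx, ← mxf_neg]
  simp only [neg_sub]

variable [Algebra.EssFiniteType ℂ E] [Algebra.EssFiniteType ℂ F]

omit [Algebra.EssFiniteType ℂ F] in
/-- the sections upstairs come from the generators -/
theorem Gen.h0_le (h : Gen B m0 s) (w : Basis (Fin k) E F) (m : ℕ) :
    h0 ((m0 + m) • pb (tw E F) (oP B)) ≤ (finrank ℂ (colSp (crd w s) k (m • oP B)) : ℕ) := by
  let f : F →ₗ[ℂ] (Fin k → E) := (w.equivFun.toLinearMap).restrictScalars ℂ
  have hf : Function.Injective f := w.equivFun.injective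
  have h1 : ((m0 + m) • pb (tw E F) (oP B)).Sec.map f ≤ colSp (crd w s) k (m • oP B) := by
    rintro _ ⟨φ, hφ, rfl⟩
    obtain ⟨τ, h1, rfl⟩ := h.glob m φ hφ
    rw [map_sum]
    refine Submodule.sum_mem _ fun j _ => Submodule.subset_span ⟨j, τ j, h1 j, ?_⟩
    funext i
    simp [f, crd_fin]
  have h2 := Submodule.finrank_mono h1
  rw [← (Submodule.equivMapOfInjective f hf _).finrank_eq] at h2
  exact Int.ofNat_le.2 h2

omit [Algebra.EssFiniteType ℂ E] in
/-- local combinations of the generators are sections upstairs -/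
theorem Gen.le_h0 (h : Gen B m0 s) (w : Basis (Fin k) E F) (m : ℕ) :
    ((finrank ℂ (latSec (crd w s) k (m • oP B)) : ℕ) : ℤ) ≤
      h0 ((m0 + m) • pb (tw E F) (oP B)) := by
  let f : (Fin k → E) →ₗ[ℂ] F := (w.equivFun.symm.toLinearMap).restrictScalars ℂ
  have hf : Function.Injective f := w.equivFun.symm.injective
  have h1 : (latSec (crd w s) k (m • oP B)).map f ≤ ((m0 + m) • pb (tw E F) (oP B)).Sec := by
    rintro _ ⟨v, hv, rfl⟩ W
    obtain ⟨τ, h1, h2⟩ := hv (rsV (tw E F) W)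
    have h3 : f v = ∑ j, s j * tw E F (τ j) := by
      refine w.equivFun.injective ?_
      funext i
      rw [map_sum, Finset.sum_apply]
      refine (congrFun (w.equivFun.apply_symm_apply v) i).trans ((h2 i).trans ?_)
      refine sum_congr rfl fun j _ => ?_
      rw [mul_comm (s j), crd_fin]
      change _ = w.repr (algebraMap E F (τ j) * s j) i
      rw [← Algebra.smul_def, map_smul]
      rfl
    rw [h3, add_smul, val_add]
    refine Valuation.map_sum_le _ fun j _ => ?_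
    rw [map_mul]
    refine mul_le_mul' (h.mem j W) ?_
    rw [← map_nsmul]
    exact v_le_val_mp.2 (h1 j)
  have h2 := Submodule.finrank_mono h1
  rw [← (Submodule.equivMapOfInjective f hf _).finrank_eq] at h2
  exact Int.ofNat_le.2 h2

end Tower

end Crest.Agent.X262.Surf
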