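import Crest.Agent.X262.Surf.Defs
import Crest.Agent.X262.Top.Defs

/-!
# Row 262, SURF (helper50), part 2: statements on K3 surfaces and the outputs of the layer

* inputs: `ResStmt`, `KExcStmt`, `K3ChiStmt`, `TrkStmt`;
* outputs: `KStmt` (the inequality (K)), `G3Stmt`, `CancStmt`.
-/

set_option autoImplicit false

noncomputable section

namespace Crest.Agent.X262.Surf

open Crest.Agent.X277 Crest.Agent.X277.Lef Crest.Agent.X277.AN.G1 Crest.Agent.X277.BD
open Crest.Agent.X277.BD.Br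
open Crest.Agent.X262.Top (K3)

/-- finitely many b-divisors live on one smooth model (`X277.Unf.exists_on`) -/
def ResStmt : Prop := ∀ (F : Type) [Field F] [Algebra ℂ F] [Algebra.EssFiniteType ℂ F]
  (T : Finset (BD ℂ F)), ∃ P : PModel ℂ F, ∀ a ∈ T, a ∈ On P

/-- the relative canonical divisor of a birational morphism is exceptional -/
def KExcStmt : Prop := ∀ (F : Type) [Field F] [Algebra ℂ F] [Algebra.EssFiniteType ℂ F]
  (P P' : PModel ℂ F) (b : B2 F), oP P ∈ On P' →
    ∀ y ∈ On P, bnum [kP P' b, y] = bnum [kP P b, y]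

/-- `χ(O) = 2` on a K3 surface -/
def K3ChiStmt : Prop := ∀ (F : Type) [Field F] [Algebra ℂ F] [Algebra.EssFiniteType ℂ F] (d : ℕ)
  (S : K3 F d), Chi S.P S.b 2

/-- a surface with `p_g > 0` which is dominated by a K3 surface of Picard number one is a K3
surface of Picard number one -/
def TrkStmt : Prop := ∀ (E F : Type) [Field E] [Field F] [Algebra ℂ E] [Algebra ℂ F]
  [Algebra.EssFiniteType ℂ E] [Algebra.EssFiniteType ℂ F] (_ : E →ₐ[ℂ] F) (d : ℕ) (_ : K3 F d)
  (B : PModel ℂ E) (b : B2 E), Eff (kP B b) → ∃ d' : ℕ, Nonempty (K3 E d')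

/-- **(K)**: nef classes on a blow-up of a K3 surface of Picard number one -/
def KStmt : Prop := ∀ (F : Type) [Field F] [Algebra ℂ F] [Algebra.EssFiniteType ℂ F] (d : ℕ)
  (S : K3 F d) (P : PModel ℂ F) (b : B2 F), oP S.P ∈ On P → ∀ a ∈ On P, Nef a →
    bnum [a, S.L] ^ 2 ≤ d * (bnum [a, a] + bnum [kP P b, a] ^ 2)

/-- **G3**: a K3 surface of Picard number one and large degree has no rational map of small
degree `≥ 2` onto a surface -/
def G3Stmt : Prop := ∃ C : ℕ → ℕ, ∀ (E F : Type) [Field E] [Field F] [Algebra ℂ E] [Algebra ℂ F]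
  [Algebra.EssFiniteType ℂ E] [Algebra.EssFiniteType ℂ F] (α : E →ₐ[ℂ] F) (d k : ℕ) (_ : K3 F d),
    2 ≤ deg α → deg α ≤ k → d ≤ C k

/-- **cancellation** -/
def CancStmt : Prop := ∀ (F F' : Type) [Field F] [Field F'] [Algebra ℂ F] [Algebra ℂ F']
  [Algebra.EssFiniteType ℂ F] (d : ℕ) (_ : K3 F d),
    Nonempty (RatFunc F ≃ₐ[ℂ] RatFunc F') → Nonempty (F ≃ₐ[ℂ] F')

end Crest.Agent.X262.Surf
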