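import Crest.Agent.X262.Surf.Core
import Crest.Agent.X262.Rho82.Nef
import Crest.Agent.X262.Rul.Br
import Crest.Agent.R276.FGSub_595

/-!
# Row 262, SURF (helper50), part 5: numbers on a K3 surface of Picard number one; cancellation
-/

set_option autoImplicit false

noncomputable section

namespace Crest.Agent.X262.Surf

open Crest.Agent.X277 Crest.Agent.X277.Lef Crest.Agent.X277.AN.G1 Crest.Agent.X277.BD
open Crest.Agent.X277.BD.Br Module Filter Finset
open Crest.Agent.X262.Top (K3)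

variable {E F : Type} [Field E] [Field F] [Algebra ℂ E] [Algebra ℂ F]
  [Algebra.EssFiniteType ℂ E] [Algebra.EssFiniteType ℂ F] {d : ℕ}

theorem numZ_of_pair (hd : dim ℂ F = 2) {x : BD ℂ F} (h : ∀ y, bnum [x, y] = 0) : NumZ x := by
  intro l
  by_cases hl : l.length = 1
  · obtain ⟨y, rfl⟩ := List.length_eq_one_iff.1 hl
    exact h y
  · exact bnum_of_ne (by simpa [hd] using hl)

theorem numZ_pb {z : BD ℂ E} (h : NumZ z) (α : E →ₐ[ℂ] F) : NumZ (pb α z) :=
  numZ_of_nef_neg ((Rho82.nef_of_numZ h).pb α)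
    (map_neg (pb α) z ▸ (Rho82.nef_of_numZ h.neg).pb α)

theorem num_nonneg {a l : BD ℂ F} (ha : Eff a) (hl : Nef l) : 0 ≤ bnum [a, l] :=
  ha.bnum_nonneg (l := [l]) (by simpa using hl)

omit [Algebra.EssFiniteType ℂ F] in
theorem h0_zero_le : h0 (0 : BD ℂ F) ≤ 1 := by
  have h1 : (0 : BD ℂ F).Sec ≤ Submodule.span ℂ {1} := fun x hx => by
    have h2 : IsIntegral (⊥ : Subalgebra ℂ F) x := Cns.isIntegral_of_val fun V hV =>
      RZ.le_one_iff.1 (hx ⟨V, Cns.KV.of_le hV⟩)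
    obtain ⟨c, rfl⟩ := (IsAlgClosed.algebraMap_bijective_of_isIntegral (k := ℂ)
      (K := integralClosure ℂ F)).2 ⟨x, isIntegral_trans (R := ℂ) x h2⟩ |>.imp
        fun c hc => congrArg Subtype.val hc
    exact Submodule.mem_span_singleton.2 ⟨c, (Algebra.algebraMap_eq_smul_one c).symm⟩
  have h2 := (Submodule.finrank_mono h1).trans (finrank_span_singleton (one_ne_zero' F)).le
  exact Int.ofNat_le.2 h2

/-- `χ(O) ≤ 1` if `p_g = 0` -/
theorem chi_le_one (hS : SerStmt) {P : PModel ℂ F} {b : B2 F} {c : ℤ} (hc : Chi P b c)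
    (h : ¬ Eff (kP P b)) : c ≤ 1 := by
  have h1 := hS F P b c hc 0 (zero_mem _)
  have h2 : h0 (kP P b) = 0 := by
    rw [eff_iff_finrank, not_lt, Nat.le_zero] at h
    rw [h0, h, Nat.cast_zero]
  rw [rr, bnum_zero, sub_zero, h2] at h1
  linarith [h0_zero_le (F := F)]

namespace K3n

variable (S : K3 F d)

include S in
theorem dim_two : dim ℂ F = 2 := Hor83.dim_two S.b

theorem exists_c : ∃ c : ℕ, 0 < c ∧ NumZ (oP S.P - c • S.L) := by
  obtain ⟨c, hc⟩ := S.gen _ oP_mem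
  have h1 := oP_sq_pos S.P S.b
  have h2 := hc _ oP_mem
  have h3 : 0 < c := by
    rw [bnum_sub, bnum_zsmul, sub_eq_zero] at h2
    exact (mul_pos_iff_of_pos_right S.L_pos).1 (h2 ▸ h1)
  lift c to ℕ using h3.le
  rw [natCast_zsmul] at h2
  refine ⟨c, Int.natCast_pos.1 h3, numZ_of_pair (dim_two S) fun y => ?_⟩
  refine eq_case0 (Λ := []) (by simp) free_oP.nef h1 h2 ?_ y
  simpa only [natCast_zsmul] using hc _ (sub_mem oP_mem (nsmul_mem S.L_on c))

include S in
theorem d_pos : 0 < d := by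
  obtain ⟨c, -, h⟩ := exists_c S
  have h1 := h.bnum_eq [S.L]
  rw [bnum_nsmul, S.L_sq, bnum_swap] at h1
  have h2 := S.L_pos
  rw [h1] at h2
  exact Nat.pos_of_ne_zero fun h3 => by simp [h3] at h2

theorem nef_L : Nef S.L := by
  obtain ⟨c, hc, h⟩ := exists_c S
  refine Nef.of_nsmul hc ?_
  simpa using (free_oP (P := S.P)).nef.add (Rho82.nef_of_numZ h.neg)

theorem dvd_L (hN : NormStmt) (y : BD ℂ F) : (d : ℤ) ∣ bnum [S.L, y] := by
  obtain ⟨A, h1, h2⟩ := hN F F (AlgHom.id ℂ F) S.P S.b y (dim_two S)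
  obtain ⟨c, hc⟩ := S.gen A h1
  have h3 := hc _ S.L_on
  rw [bnum_sub, bnum_zsmul, S.L_sq, ← h2 _ S.L_on, pb_id, sub_eq_zero] at h3
  rw [bnum_swap, h3]
  exact dvd_mul_left _ _

theorem lin_k (b : B2 F) : Lin (kP S.P b) 0 := (lin_kP b S.b).trans S.can

theorem k_num (b : B2 F) (y : BD ℂ F) : bnum [kP S.P b, y] = 0 := by
  rw [(lin_k S b).bnum_eq, bnum_zero]

theorem k_eff {P : PModel ℂ F} (h : oP S.P ∈ On P) (b : B2 F) : Eff (kP P b) :=
  ((lin_k S b).eff Eff.zero).mono (kP_le b h)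

theorem k_L (hK : KExcStmt) {P : PModel ℂ F} (h : oP S.P ∈ On P) (b : B2 F) :
    bnum [kP P b, S.L] = 0 := (hK F S.P P b h _ S.L_on).trans (k_num S b _)

/-- nef classes which are orthogonal to the canonical class come from the K3 surface -/
theorem numZ_of_k (hK : KStmt) {P : PModel ℂ F} (h : oP S.P ∈ On P) (b : B2 F) {a : BD ℂ F}
    (ha : a ∈ On P) (hn : Nef a) (h0 : bnum [kP P b, a] = 0) :
    NumZ (d • a - bnum [a, S.L] • S.L) := by
  have h1 := hK F d S P b h a ha hn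
  have hd : 0 < bnum [S.L, S.L] := S.L_sq ▸ Int.natCast_pos.2 (d_pos S)
  have h2 := hi (Λ := []) (by simp) hd a
  rw [h0, ← S.L_sq] at h1
  rw [bnum_swap S.L a] at h2
  refine numZ_of_pair (dim_two S) fun y => ?_
  have h3 := cs_eq (Λ := []) (x := a) (by simp) (nef_L S) hd (by linarith) y
  rw [bnum_sub, bnum_nsmul, bnum_zsmul, ← S.L_sq, h3, sub_self]

end K3n

theorem cancStmt : CancStmt := by
  rintro F F' _ _ _ _ _ d S ⟨e⟩
  have : Algebra.EssFiniteType F (RatFunc F) :=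
    have := Algebra.EssFiniteType.of_isLocalization (R := Polynomial F) (RatFunc F)
      (nonZeroDivisors (Polynomial F))
    Algebra.EssFiniteType.comp F (Polynomial F) (RatFunc F)
  have : Algebra.EssFiniteType ℂ (RatFunc F) := Algebra.EssFiniteType.comp ℂ F (RatFunc F)
  have : Algebra.EssFiniteType ℂ (RatFunc F') := (Algebra.EssFiniteType.iff_of_algEquiv e).1 ‹_›
  have := R276.FGSub_595.essFiniteType_of_tower ℂ F' (RatFunc F')
  obtain ⟨f, -⟩ := Rul.rul (Rul.pg_of_lin S.can) e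
  exact ⟨f⟩

end Crest.Agent.X262.Surf
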