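import Crest.Agent.X262.Surf.Eta

/-!
# Row 262, SURF (helper50), part 8: the glue `g3_of : Hyps2 → G3Stmt`
-/

set_option autoImplicit false

noncomputable section

namespace Crest.Agent.X262.Surf

open Crest.Agent.X277 Crest.Agent.X277.Lef Crest.Agent.X277.AN.G1 Crest.Agent.X277.BD
open Crest.Agent.X277.BD.Br Module Filter Finset
open Crest.Agent.X262.Top (K3)
open Crest.Agent.X262.Gal71

/-- all packages of the layer -/
structure Hyps2 : Prop extends Hyps where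
  rr : RRStmt
  gen : GenStmt
  cmp : CmpStmt
  norm : NormStmt
  chi : K3ChiStmt
  trk : TrkStmt
  kk : KStmt
  unim : UnimStmt
  econ : EconStmt

/-- the bound if `p_g = 0` downstairs -/
theorem arith0 {d k T Q R K : ℤ} (hd : 0 < d) (hk : 0 ≤ k) (hT : d ^ 2 ≤ T) (hR : R ≤ 0)
    (h1 : 0 ≤ d * R + 6 * T) (h2 : 0 ≤ d ^ 2 * K + 12 * (d * R) + 36 * T)
    (h3 : Q ^ 2 ≤ 64 * k ^ 12 * (2 * k * T + 2 * R ^ 2 - K * T))
    (h4 : T ^ 2 ≤ d * (k * T + Q ^ 2)) : d ≤ k + 64 * k ^ 12 * (2 * k + 108) := by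
  have hT0 : 0 < T := lt_of_lt_of_le (by positivity) hT
  have hR' : d * R ≤ 0 := mul_nonpos_of_nonneg_of_nonpos hd.le hR
  have h5 : (d * R) ^ 2 ≤ 36 * T ^ 2 := by nlinarith
  have h6 : -(d ^ 2 * K) * T ≤ 36 * T * T := mul_le_mul_of_nonneg_right (by linarith) hT0.le
  have h7 : k * T * d ^ 2 ≤ k * T * T := mul_le_mul_of_nonneg_left hT (by positivity)
  have h8 : d ^ 2 * (2 * k * T + 2 * R ^ 2 - K * T) ≤ (2 * k + 108) * T ^ 2 := by nlinarith
  have h9 : d ^ 2 * Q ^ 2 ≤ 64 * k ^ 12 * ((2 * k + 108) * T ^ 2) :=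
    calc d ^ 2 * Q ^ 2 ≤ d ^ 2 * (64 * k ^ 12 * (2 * k * T + 2 * R ^ 2 - K * T)) :=
          mul_le_mul_of_nonneg_left h3 (by positivity)
      _ = 64 * k ^ 12 * (d ^ 2 * (2 * k * T + 2 * R ^ 2 - K * T)) := by ring
      _ ≤ _ := mul_le_mul_of_nonneg_left h8 (by positivity)
  have h10 := mul_le_mul_of_nonneg_left h4 hd.le
  refine le_of_mul_le_mul_right ?_ (pow_pos hT0 2)
  linarith

/-- the bound if `p_g > 0` downstairs -/
theorem arith1 {d k T Q : ℤ} (hd : 0 < d) (hk : 0 ≤ k) (hT : 0 < T) (hQ : d ≤ Q)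
    (h3 : Q ^ 2 ≤ 64 * k ^ 12 * (4 * k * T)) (h4 : T ^ 2 ≤ d * (k * T + Q ^ 2)) :
    d ≤ 256 * k ^ 13 * (k + 256 * k ^ 13) := by
  have h5 : T ≤ d * (k + 256 * k ^ 13) := by
    refine le_of_mul_le_mul_right ?_ hT
    linarith [mul_le_mul_of_nonneg_left h3 hd.le]
  have h6 : d ^ 2 ≤ Q ^ 2 := pow_le_pow_left₀ hd.le hQ 2
  have h7 := mul_le_mul_of_nonneg_left h5 (by positivity : 0 ≤ 256 * k ^ 13)
  refine le_of_mul_le_mul_right ?_ hd
  linarith

section Main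

variable {E F Ω : Type} [Field E] [Field F] [Field Ω] [Algebra ℂ E] [Algebra ℂ F] [Algebra ℂ Ω]
  [Algebra E F] [IsScalarTower ℂ E F] [Algebra E Ω] [IsScalarTower ℂ E Ω]
  [Algebra.EssFiniteType ℂ E] [Algebra.EssFiniteType ℂ F] [FiniteDimensional E F]
  (H : Hyps2) {d : ℕ} (S : K3 F d)

include H in
theorem exists_run (B : PModel ℂ E) (b : B2 E) {c : ℤ} (hc : Chi B b c) (y : BD ℂ F) :
    ∃ R : Run E F, R.B = B ∧ R.bE = b ∧ R.cE = c ∧ R.cF = 2 ∧ oP S.P ∈ On R.P ∧ y ∈ On R.P := by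
  classical
  obtain ⟨m0, n, s, hs⟩ := H.gen E F B
  obtain ⟨bF, hb⟩ := H.cmp E F b
  obtain ⟨P, hP⟩ := H.res F {pb (tw E F) (oP B), oP S.P, y}
  exact ⟨⟨B, P, b, bF, c, 2, m0, n, s, hs, hb, hP _ (by simp), hc,
    H.bir F _ _ _ _ _ (H.chi F d S)⟩, rfl, rfl, rfl, rfl, hP _ (by simp), hP _ (by simp)⟩

variable [Algebra.EssFiniteType ℂ Ω] [FiniteDimensional E Ω] [IsGalois E Ω] [Fintype (F →ₐ[E] Ω)]
  (p₀ : F →ₐ[E] Ω)

omit [FiniteDimensional E F] in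
include H p₀ in
theorem k_ineq {P : PModel ℂ F} (b : B2 F) (hS : oP S.P ∈ On P)
    (h : pb (tw E F) (nm E Ω S.L) ∈ On P) :
    bnum [(nm E Ω S.L : BD ℂ E), nm E Ω S.L] ^ 2 ≤ d * (finrank E F *
      bnum [(nm E Ω S.L : BD ℂ E), nm E Ω S.L] + bnum [kP P b, pb (tw E F) (nm E Ω S.L)] ^ 2) := by
  have h1 := H.kk F d S P b hS _ h ((nef_nm (K3n.nef_L S)).pb _)
  rwa [bnum_swap _ S.L, ← Run.nm_num p₀, bnum_pb2, deg_tower] at h1

omit [FiniteDimensional E F] in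
include H p₀ in
theorem dvd_th (a : BD ℂ E) : (d : ℤ) ∣ bnum [nm E Ω S.L, a] :=
  Run.nm_num p₀ S.L a ▸ K3n.dvd_L S H.norm _

include H S p₀ in
theorem bound0 (h2 : 2 ≤ finrank E F) (hmax : ∀ M : IntermediateField E F, M = ⊥ ∨ M = ⊤)
    (b : B2 E) (h : ∀ B : PModel ℂ E, ¬ Eff (kP B b)) :
    (d : ℤ) ≤ finrank E F + 64 * (finrank E F : ℤ) ^ 12 * (2 * finrank E F + 108) := by
  classical
  have hd := K3n.d_pos S
  have hn : Nef (nm E Ω S.L) := nef_nm (K3n.nef_L S)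
  have hT := Run.th_pos p₀ S
  obtain ⟨B, h3, h4⟩ := H.econ E b _ d hd h hn
    (hn.big_iff.2 (by rw [Hor83.dim_two b]; exact hT)) (dvd_th H S p₀)
  obtain ⟨θ, -, h5⟩ := H.unim E B b _ d (h B) h3 fun a _ => dvd_th H S p₀ a
  obtain ⟨c, hc⟩ := H.rr E B b
  obtain ⟨R, rfl, rfl, rfl, h6, h7, h8⟩ := exists_run H S B b hc (pb (tw E F) (nm E Ω S.L))
  have h9 := chi_le_one H.ser hc (h _)
  obtain ⟨h10, h11⟩ := R.num H.toHyps p₀ S h2 hmax h7 h3 one_pos
    (by rw [one_smul, sub_self]; exact NumZ.zero) (c := 2 * finrank E F) (by positivity)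
    (by rw [h6]; nlinarith [Int.natCast_nonneg (finrank E F)])
  have h12 : 0 ≤ bnum [_, nm E Ω S.L] := bnum_nonneg (by simpa using ⟨h4, hn⟩)
  have h13 : 0 ≤ bnum [_, _] := bnum_nonneg (l := [_, _]) (by simpa using ⟨h4, h4⟩)
  rw [bnum_add, bnum_nsmul, bnum_nsmul] at h12
  rw [sq_add, sq_nsmul, sq_nsmul, bnum_nsmul, bnum_nsmul2] at h13
  refine arith0 (Int.natCast_pos.2 hd) (Int.natCast_nonneg _) ?_ h10 (by simpa using h12)
    (by push_cast at h13; linarith) h11 (k_ineq H S p₀ R.bF h7 h8)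
  rw [h5.bnum_eq, bnum_swap, h5.bnum_eq, sq_nsmul] at hT ⊢
  exact le_mul_of_one_le_right (by positivity) ((mul_pos_iff_of_pos_left (by positivity)).1 hT)

include H S p₀ in
theorem bound1 (h2 : 2 ≤ finrank E F) (hmax : ∀ M : IntermediateField E F, M = ⊥ ∨ M = ⊤)
    {d' : ℕ} (S' : K3 E d') :
    (d : ℤ) ≤ 256 * (finrank E F : ℤ) ^ 13 * (finrank E F + 256 * (finrank E F : ℤ) ^ 13) := by
  classical
  have hd := K3n.d_pos S
  have hn : Nef (nm E Ω S.L) := nef_nm (K3n.nef_L S)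
  have hT := Run.th_pos p₀ S
  have hc : ∀ R : Run E F, R.cE = 2 → R.cF = 2 →
      2 * finrank E F * R.cE - 2 * R.cF ≤ 4 * finrank E F := fun R h h' => by
    rw [h, h']
    linarith
  have hz : NumZ (d' • nm E Ω S.L - bnum [nm E Ω S.L, S'.L] • S'.L) := by
    obtain ⟨B, hB⟩ := H.res E {oP S'.P, nm E Ω S.L}
    obtain ⟨R, rfl, h3, h4, h5, h6, -⟩ := exists_run H S B S'.b
      (H.bir E _ _ _ _ _ (H.chi E d' S')) 0
    have h7 := (R.num H.toHyps p₀ S h2 hmax h6 (hB (nm E Ω S.L) (by simp)) one_pos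
      (by rw [one_smul, sub_self]; exact NumZ.zero) (by positivity) (hc R h4 h5)).1
    exact K3n.numZ_of_k S' H.kk (hB _ (by simp)) R.bE (hB _ (by simp)) hn
      (h7.antisymm (num_nonneg (K3n.k_eff S' (hB _ (by simp)) _) hn))
  obtain ⟨R, h3, -, h4, h5, h6, h7⟩ := exists_run H S S'.P S'.b (H.chi E d' S')
    (pb (tw E F) (nm E Ω S.L))
  have h8 := (R.num H.toHyps p₀ S h2 hmax h6 (h3 ▸ zsmul_mem S'.L_on _) (K3n.d_pos S') hz
    (by positivity) (hc R h4 h5)).2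
  rw [h3, K3n.k_num S', K3n.k_num S', zero_mul, sub_zero, zero_pow two_ne_zero, mul_zero,
    add_zero] at h8
  refine arith1 (Int.natCast_pos.2 hd) (Int.natCast_nonneg _) hT (Int.le_of_dvd ?_ ?_) h8
    (k_ineq H S p₀ R.bF h6 h7)
  · refine (num_nonneg (K3n.k_eff S h6 _) (hn.pb _)).lt_of_ne' fun h9 => ?_
    have h10 : bnum [nm E Ω S.L, S'.L] ≠ 0 := fun h10 => by
      have h11 := hz.bnum_eq [nm E Ω S.L]
      rw [h10, zero_smul, bnum_zero, bnum_nsmul] at h11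
      exact (mul_pos (Int.natCast_pos.2 (K3n.d_pos S')) hT).ne' h11
    have h11 := hz.bnum_eq [nm E Ω (kP R.P R.bF)]
    rw [bnum_nsmul, bnum_zsmul, bnum_swap, Run.nm_num p₀, h9, mul_zero, eq_comm,
      mul_eq_zero, or_iff_right h10] at h11
    obtain ⟨c, -, h12⟩ := K3n.exists_c S'
    have h13 := h12.bnum_eq [nm E Ω (kP R.P R.bF)]
    rw [bnum_nsmul, h11, mul_zero, bnum_swap, Run.nm_num p₀, ← h3] at h13
    have h14 := R.eta H.toHyps (p := enu (Fintype.equivFin _) p₀)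
      (Run.card_eq p₀ ▸ enu_inj _ p₀) (h3 ▸ K3n.lin_k S' _) h13 (K3n.k_eff S h6 _)
    rw [h4, h5] at h14
    omega
  · rw [← Run.nm_num p₀, bnum_swap]
    exact dvd_th H S p₀ _

end Main

/-- the bound -/
def cG (k : ℕ) : ℕ := k + 64 * k ^ 12 * (2 * k + 108) + 256 * k ^ 13 * (k + 256 * k ^ 13)

theorem cG_mono {k l : ℕ} (h : k ≤ l) : cG k ≤ cG l := by
  unfold cG
  gcongr

theorem bound (H : Hyps2) {E F : Type} [Field E] [Field F] [Algebra ℂ E] [Algebra ℂ F]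
    [Algebra E F] [IsScalarTower ℂ E F] [Algebra.EssFiniteType ℂ F] {d : ℕ} (S : K3 F d)
    (h2 : 2 ≤ finrank E F) (hmax : ∀ M : IntermediateField E F, M = ⊥ ∨ M = ⊤) :
    d ≤ cG (finrank E F) := by
  have := R276.FGSub_595.essFiniteType_of_tower ℂ E F
  have : FiniteDimensional E F := Module.finite_of_finrank_pos (by omega)
  have : CharZero E := charZero_of_injective_algebraMap (algebraMap ℂ E).injective
  obtain ⟨Ω, _, _, ⟨p₀⟩⟩ := exists_closure E F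
  have : Algebra.EssFiniteType ℂ Ω := Algebra.EssFiniteType.comp ℂ E Ω
  have : Fintype (F →ₐ[E] Ω) := inferInstance
  have hE : dim ℂ E = 2 :=
    ((deg_pos_iff (tw E F)).1 (by rw [deg_tower]; omega)).symm.trans (K3n.dim_two S)
  let b : B2 E := finBasisOfFinrankEq E _ hE
  have h3 : (d : ℤ) ≤ cG (finrank E F) := by
    unfold cG
    push_cast
    by_cases h : ∃ B : PModel ℂ E, Eff (kP B b)
    · obtain ⟨B, hB⟩ := h
      obtain ⟨d', ⟨S'⟩⟩ := H.trk E F (tw E F) d S B b hB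
      exact (bound1 H S p₀ h2 hmax S').trans (le_add_of_nonneg_left (by positivity))
    · exact (bound0 H S p₀ h2 hmax b (not_exists.1 h)).trans (le_add_of_nonneg_right (by positivity))
  exact_mod_cast h3

/-- **the glue** -/
theorem g3_of (H : Hyps2) : G3Stmt := by
  refine ⟨cG, fun E F _ _ _ _ _ _ α d k S h2 hk => ?_⟩
  have h1 : finrank α.fieldRange F = deg α := by
    let := α.toRingHom.toAlgebra
    exact (Algebra.finrank_eq_of_equiv_equiv (AlgEquiv.ofInjectiveField α).toRingEquiv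
      (RingEquiv.refl F) (by ext; rfl)).symm
  obtain ⟨M, -, h3, h4, h5⟩ := exists_max α.fieldRange (h1 ▸ h2)
  exact (bound H S h3 h5).trans (cG_mono (h4.trans (h1 ▸ hk)))

end Crest.Agent.X262.Surf
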