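import Crest.Agent.X262.Surf.K3n
import Crest.Agent.X262.Int23.Hl

/-!
# Row 262, SURF (helper50), part 9: unimodularity of the numerical lattice if `p_g = 0`
-/

set_option autoImplicit false

noncomputable section

namespace Crest.Agent.X262.Surf

open Crest.Agent.X277 Crest.Agent.X277.Lef Crest.Agent.X277.AN.G1 Crest.Agent.X277.BD
open Crest.Agent.X277.BD.Br Module
open Crest.Agent.X262.Coh Crest.Agent.X262.Int23

variable {C : Th} (A : C.Ax)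

include A

theorem itg_c1 (X : SV) {a b : BD ℂ X.F} (ha : a ∈ X.On) (hb : b ∈ X.On) :
    C.itg X (C.c1 X a * C.c1 X b) = (bnum [a, b] : ℤ) := by
  simpa using A.man.c1_num X [a, b] (by simp [ha, hb])

theorem unimStmt : UnimStmt := by
  intro E _ _ _ B b Θ m h hΘ hd
  rcases Nat.eq_zero_or_pos m with rfl | hm
  · refine ⟨0, zero_mem _, numZ_of_pair (Hor83.dim_two b) fun y => ?_⟩
    rw [smul_zero, sub_zero]
    exact eq_case0 (Λ := []) (by simp) free_oP.nef (oP_sq_pos B b)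
      (zero_dvd_iff.1 (hd _ oP_mem)) (zero_dvd_iff.1 (hd _ hΘ)) y
  have h2 : (sv B).dim = 2 := Hor83.dim_two b
  have := (A.pd (sv B)).1
  have h3 : C.typ (sv B) 2 0 = ⊥ := by
    rw [eff_iff_finrank, not_lt, Nat.le_zero] at h
    exact Submodule.finrank_eq_zero.1 ((A.pg (sv B) 1 b).trans h)
  have h4 : ∀ x ∈ C.dg (sv B) 1, x ∈ C.typ (sv B) 1 1 := fun x hx => by
    obtain ⟨a, ha, y, hy, c, hc, rfl⟩ := dec_one A hx
    have h5 := A.typ.cj _ c hc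
    rw [h3, Submodule.mem_bot] at ha h5
    rwa [ha, ← A.man.cj_cj _ c, h5, map_zero, zero_add, add_zero]
  have hm' : (m : ℂ) ≠ 0 := Nat.cast_ne_zero.2 hm.ne'
  have h5 : (m : ℂ)⁻¹ • C.c1 (sv B) Θ ∈ C.dg (sv B) 1 :=
    Submodule.smul_mem _ _ (A.man.c1_dg _ _ hΘ)
  obtain ⟨θ, h6, h7⟩ := A.l11 _ h2 _ (mem_Lam A h2 h5 fun y hy => by
    obtain ⟨a, ha, rfl⟩ := A.l11 _ h2 y hy (h4 y (A.lam.dg _ y hy))
    obtain ⟨k, hk⟩ := hd a ha
    refine ⟨k, ?_⟩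
    rw [smul_mul_assoc, map_smul, itg_c1 A _ hΘ ha, hk, Int.cast_mul, Int.cast_natCast,
      smul_eq_mul, inv_mul_cancel_left₀ hm']) (h4 _ h5)
  have h8 : ∀ y ∈ On B, bnum [Θ - m • θ, y] = 0 := fun y hy => by
    have h9 := itg_c1 A (sv B) h6 hy
    rw [← h7, smul_mul_assoc, map_smul, itg_c1 A _ hΘ hy, smul_eq_mul,
      inv_mul_eq_iff_eq_mul₀ hm'] at h9
    rw [bnum_sub, bnum_nsmul, sub_eq_zero]
    exact_mod_cast h9
  exact ⟨θ, h6, numZ_of_pair h2 (eq_case0 (Λ := []) (by simp) free_oP.nef (oP_sq_pos B b)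
    (h8 _ oP_mem) (h8 _ (sub_mem hΘ (nsmul_mem h6 m))))⟩

end Crest.Agent.X262.Surf
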