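import Crest.Agent.X262.Surf.Gal

/-!
# Row 262, SURF (helper50), part 7: the unramified case
-/

set_option autoImplicit false

noncomputable section

namespace Crest.Agent.X262.Surf

open Crest.Agent.X277 Crest.Agent.X277.Lef Crest.Agent.X277.AN.G1 Crest.Agent.X277.BD
open Crest.Agent.X277.BD.Br Module Filter Finset
open Crest.Agent.X262.Gal71

section One

variable {F : Type} [Field F] [Algebra ℂ F] [Algebra.EssFiniteType ℂ F]

/-- the summands of a numerically trivial sum of effective divisors are numerically trivial -/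
theorem num_of_sum {ι : Type} {t : Finset ι} {a : ι → BD ℂ F} (h0 : ∀ i ∈ t, 0 ≤ a i)
    (h : ∀ y, bnum [∑ i ∈ t, a i, y] = 0) {i : ι} (hi : i ∈ t) (y : BD ℂ F) : bnum [a i, y] = 0 := by
  have h1 : ∀ l, Nef l → bnum [a i, l] = 0 := fun l hl =>
    (sum_eq_zero_iff_of_nonneg fun j hj => num_nonneg (eff_of_nonneg (h0 j hj)) hl).1
      ((bnum_sum _ _ _).symm.trans (h l)) i hi
  obtain ⟨b, c, hb, hc, rfl⟩ := exists_sub y
  rw [bnum_sub2, h1 b hb.nef, h1 c hc.nef, sub_self]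

theorem h0_le_add {a e : BD ℂ F} (he : Eff e) : h0 a ≤ h0 (e + a) :=
  Int.ofNat_le.2 (add_comm a e ▸ he.finrank_le a)

end One

namespace Run

variable {E F Ω : Type} [Field E] [Field F] [Field Ω] [Algebra ℂ E] [Algebra ℂ F] [Algebra ℂ Ω]
  [Algebra E F] [IsScalarTower ℂ E F] [Algebra E Ω] [IsScalarTower ℂ E Ω]
  [Algebra.EssFiniteType ℂ E] [Algebra.EssFiniteType ℂ F] [Algebra.EssFiniteType ℂ Ω]
  [FiniteDimensional E Ω] (R : Run E F) (H : Hyps) {p : ℕ → F →ₐ[E] Ω}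

theorem hor_on {y : BD ℂ Ω} (h : ∀ W, Hor R.B (tw E Ω) W → y.val W = 1) {a : BD ℂ E}
    (ha : a ∈ On R.B) : bnum [y, pb (tw E Ω) a] = 0 := by
  have h1 : ∀ l ∈ On R.B, Nef l → bnum [y, pb (tw E Ω) l] = 0 := fun l hl hn => by
    have h2 := fun (z : BD ℂ Ω) => Hor83.horStmt E Ω (tw E Ω) R.B R.bE z (pb (tw E Ω) l) 0 l 1
      R.dim_Ω (hn.pb (tw E Ω)) Nef.zero hl one_pos
      (by rw [add_zero, one_smul, sub_self]; exact NumZ.zero)
    have h3 := h2 y fun W hW => (h W hW).ge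
    have h4 := h2 (-y) fun W hW => by rw [val_neg, h W hW, inv_one]
    rw [bnum_neg] at h4
    linarith
  obtain ⟨b, hb, N, hf, rfl⟩ := exists_sub_On ha
  rw [map_sub, bnum_sub2, h1 b hb hf.nef, h1 _ (nsmul_mem oP_mem N) (free_oP.nef.nsmul N), sub_self]

variable [FiniteDimensional E F]

include H in
theorem ξ_num (hp : Set.InjOn p (Set.Iio (finrank E F))) (hK : Lin (kP R.B R.bE) 0)
    (h0 : bnum [kP R.P R.bF, pb (tw E F) (oP R.B)] = 0) {r : ℕ} (hr : r < finrank E F)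
    (y : BD ℂ Ω) : bnum [R.ξ p r, y] = 0 := by
  let w : Basis (Fin (finrank E F)) E F := finBasis E F
  have h1 : ∀ i < finrank E F, ∀ a ∈ (range (finrank E F)).erase i, 0 ≤ R.x (p a) (p i) :=
    fun i hi a ha => R.gen.xx_nonneg fun h =>
      ne_of_mem_erase ha (hp (mem_range.1 (mem_of_mem_erase ha)) hi h)
  have h2 : ∀ i < finrank E F, ∀ a ∈ (range (finrank E F)).erase i, ∀ W,
      Hor R.B (tw E Ω) W → (R.x (p a) (p i)).val W = 1 := fun i hi a ha => by
    have h3 := R.hor_eq ((R.core H hp).2 i hi)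
    rw [bnum_add, bnum_sum, bnum_pb2, hK.bnum_eq, bnum_zero, mul_zero, zero_add, Hq,
      ← pb_sh_inc (p i), bnum_pb2, h0, mul_zero, pb_sh_inc] at h3
    exact Hor83.hor0Stmt E Ω (tw E Ω) R.B R.bE _ R.dim_Ω (fun W _ => h1 i hi a ha W)
      ((sum_eq_zero_iff_of_nonneg fun j hj => num_nonneg (eff_of_nonneg (h1 i hi j hj))
        (free_oP.nef.pb _)).1 h3.symm a ha).le
  have h3 : ∀ W, Hor R.B (tw E Ω) W → (∑ r ∈ range (finrank E F), R.ξ p r).val W = 1 :=
    fun W hW => by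
      rw [val_sum]
      refine prod_eq_one fun i hi => ?_
      rw [R.ξ_val H hp (mem_range.1 hi) hW, val_sum]
      exact prod_eq_one fun a ha => h2 i (mem_range.1 hi) a (mem_erase.2 ⟨(mem_range.1 ha).ne,
        mem_range.2 ((mem_range.1 ha).trans (mem_range.1 hi))⟩) W hW
  have h4 : ∀ r ∈ range (finrank E F), 0 ≤ R.ξ p r := fun r hr =>
    sub_nonneg.2 (Nm_le ((rk_cj w R.gen.span hp).of_le (mem_range.1 hr)) (R.gen.cj_mem _))
  refine num_of_sum h4 (fun y => ?_) (mem_range.2 hr) y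
  have h5 : 0 < bnum [R.Hq Ω, R.Hq Ω] := by
    rw [bnum_pb2, deg_tower]
    exact mul_pos (Int.natCast_pos.2 finrank_pos) (oP_sq_pos _ R.bE)
  refine eq_case0 (Λ := []) (by simp) (free_oP.nef.pb _) h5 (R.hor_on h3 oP_mem) ?_ y
  have h6 := (R.Dm_eq (p := p) (finrank E F)).symm.trans (Dm_cj w R.gen.span hp)
  rw [sub_eq_iff_eq_add', ← sub_eq_iff_eq_add] at h6
  nth_rewrite 2 [← h6]
  rw [bnum_sub2, bnum_add2, bnum_nsmul2, R.hor_on h3 oP_mem,
    R.hor_on h3 (H.pure E F R.B R.bE _ _ _ _ w R.gen), bnum_swap, bnum_pr]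
  simp

include H in
/-- **an unramified cover multiplies the Euler characteristic** -/
theorem eta (hp : Set.InjOn p (Set.Iio (finrank E F))) (hK : Lin (kP R.B R.bE) 0)
    (h0 : bnum [kP R.P R.bF, pb (tw E F) (oP R.B)] = 0) (he : Eff (kP R.P R.bF)) :
    finrank E F * R.cE ≤ R.cF := by
  let w : Basis (Fin (finrank E F)) E F := finBasis E F
  have hg : (finrank E Ω : ℤ) ≠ 0 := (Int.natCast_pos.2 finrank_pos).ne'
  have h1 := R.num_Dm w hp (oP R.B)
  have h2 := R.num_Nm H w hp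
  rw [sum_eq_zero fun r hr => R.ξ_num H hp hK h0 (mem_range.1 hr) _, sub_zero, mul_left_comm,
    mul_right_inj' hg] at h1
  rw [sum_eq_zero fun r hr => R.ξ_num H hp hK h0 (mem_range.1 hr) _,
    sum_eq_zero fun r hr => R.ξ_num H hp hK h0 (mem_range.1 hr) _, mul_zero, sub_zero, add_zero,
    mul_left_comm, mul_right_inj' hg] at h2
  obtain ⟨B', h3, h4⟩ := exists_flag H R.B (crd w R.s) (finrank E F)
  have h5 := fun y hy => (H.kexc E R.B B' R.bE h3 y hy).trans ((hK.bnum_eq _).trans (bnum_zero _))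
  obtain ⟨m, h6, h7⟩ := ((H.low E B' R.bE R.cE R.n _ (crd w R.s) (oP R.B)
    (H.bir E _ _ _ _ _ R.chiE) (rk_crd w R.gen.span) h4 h3 (Hor83.isMod_oP _).big).and
      (eventually_gt_atTop 0)).exists
  have h8 := H.kv F R.P R.bF R.cF R.chiF _ (nsmul_mem R.on (R.m0 + m))
    ((free_oP.nef.pb _).nsmul _) (((Hor83.isMod_oP R.B).big.pb _
      ((Hor83.dim_two R.bF).trans (Hor83.dim_two R.bE).symm)).nsmul (by omega))
  rw [rr, add_sub_cancel_left, bnum_add, sq_nsmul, bnum_nsmul2, h0, sq_F w] at h8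
  rw [sum_rr, h1, h2, h5 _ oP_mem, h5 _ (H.pure E F R.B R.bE _ _ _ _ w R.gen)] at h6
  have h9 := R.gen.le_h0 w m
  have h10 := h0_le_add (a := (R.m0 + m) • pb (tw E F) (oP R.B)) he
  push_cast at h8
  linarith

end Run

end Crest.Agent.X262.Surf
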