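import Crest.Agent.X262.Surf.K3n
import Crest.Agent.X262.G3Num.NumBD

/-!
# Row 262, SURF (helper50), part 6: the sheets of a primitive extension, the numerical inequality
-/

set_option autoImplicit false

noncomputable section

namespace Crest.Agent.X262.Surf

open Crest.Agent.X277 Crest.Agent.X277.Lef Crest.Agent.X277.AN.G1 Crest.Agent.X277.BD
open Crest.Agent.X277.BD.Br Module Filter Finset
open Crest.Agent.X262.Top (K3)
open Crest.Agent.X262.Gal71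

section Ord

variable {ι M : Type} [Fintype ι] [AddCommMonoid M] (e : ι ≃ Fin (Fintype.card ι)) (i₀ : ι)

/-- the enumeration which belongs to an ordering -/
def enu (r : ℕ) : ι := if h : r < Fintype.card ι then e.symm ⟨r, h⟩ else i₀

theorem enu_e (i : ι) : enu e i₀ (e i) = i := by
  rw [enu, dif_pos (e i).2, Fin.eta, e.symm_apply_apply]

theorem e_enu {r : ℕ} (h : r < Fintype.card ι) : (e (enu e i₀ r) : ℕ) = r := by
  rw [enu, dif_pos h, e.apply_symm_apply]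

theorem enu_inj : Set.InjOn (enu e i₀) (Set.Iio (Fintype.card ι)) := fun a ha b hb h => by
  rw [← e_enu e i₀ ha, h, e_enu e i₀ hb]

theorem sum_enu {u : Finset ℕ} {t : Finset ι} (hu : ∀ r ∈ u, r < Fintype.card ι)
    (h : ∀ i, i ∈ t ↔ (e i : ℕ) ∈ u) (f : ι → M) : ∑ r ∈ u, f (enu e i₀ r) = ∑ i ∈ t, f i :=
  sum_nbij' (enu e i₀) (fun i => e i) (fun r hr => (h _).2 (by rwa [e_enu e i₀ (hu r hr)]))
    (fun i hi => (h i).1 hi) (fun r hr => e_enu e i₀ (hu r hr)) (fun i _ => enu_e e i₀ i)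
    fun _ _ => rfl

end Ord

theorem real_to_int {Q T R K c k : ℤ} {d : ℝ} (hd : 0 < d) (hT : 0 < T)
    (h : ((Q : ℝ) / d) ^ 2 ≤ 64 * (k : ℝ) ^ 12 * (c * (T / d ^ 2) +
      ((R : ℝ) ^ 2 / T - K) * (T / d ^ 2) + (R / d) ^ 2)) :
    Q ^ 2 ≤ 64 * k ^ 12 * (c * T + 2 * R ^ 2 - K * T) := by
  have h1 : (0 : ℝ) < T := by exact_mod_cast hT
  have h2 : 64 * (k : ℝ) ^ 12 * (c * (T / d ^ 2) + ((R : ℝ) ^ 2 / T - K) * (T / d ^ 2) +
      (R / d) ^ 2) = 64 * k ^ 12 * (c * T + 2 * R ^ 2 - K * T) / d ^ 2 := by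
    field_simp
    ring
  rw [h2, div_pow, div_le_div_iff_of_pos_right (by positivity)] at h
  exact_mod_cast h

namespace Run

variable {E F Ω : Type} [Field E] [Field F] [Field Ω] [Algebra ℂ E] [Algebra ℂ F] [Algebra ℂ Ω]
  [Algebra E F] [IsScalarTower ℂ E F] [Algebra E Ω] [IsScalarTower ℂ E Ω]
  [Algebra.EssFiniteType ℂ E] [Algebra.EssFiniteType ℂ F] [Algebra.EssFiniteType ℂ Ω]
  [FiniteDimensional E F] [FiniteDimensional E Ω] [IsGalois E Ω] [Fintype (F →ₐ[E] Ω)]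
  [DecidableEq (F →ₐ[E] Ω)] (R : Run E F) (H : Hyps) (p₀ : F →ₐ[E] Ω)

omit [Algebra ℂ E] [Algebra ℂ F] [Algebra ℂ Ω] [IsScalarTower ℂ E F] [IsScalarTower ℂ E Ω]
  [Algebra.EssFiniteType ℂ E] [Algebra.EssFiniteType ℂ F] [Algebra.EssFiniteType ℂ Ω]
  [FiniteDimensional E F] [DecidableEq (F →ₐ[E] Ω)] in
include p₀ in
theorem card_eq : Fintype.card (F →ₐ[E] Ω) = finrank E F := by
  rw [← Nat.card_eq_fintype_card, card_sh p₀]

include H in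
/-- the ramification formula -/
theorem ram (i : F →ₐ[E] Ω) {W : RZ ℂ Ω} (hW : Hor R.B (tw E Ω) W) :
    (pb (sh ℂ i) (kP R.P R.bF)).val W = (R.Kq Ω + ∑ j ∈ univ.erase i, R.x j i).val W := by
  let e := Fintype.equivFin (F →ₐ[E] Ω)
  have h1 := (R.core H (p := enu e i) (card_eq i ▸ enu_inj e i)).2 (e i) (card_eq i ▸ (e i).2) W hW
  rwa [enu_e, sum_enu e i (t := univ.erase i) (f := fun j => R.x j i)
    (fun r hr => card_eq i ▸ mem_range.1 (mem_of_mem_erase hr))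
    fun j => by simp [← card_eq i, Fin.val_inj]] at h1

omit [DecidableEq (F →ₐ[E] Ω)] in
include H p₀ in
theorem core' (e : (F →ₐ[E] Ω) ≃ Fin (Fintype.card (F →ₐ[E] Ω))) :
    ∃ ξ : (F →ₐ[E] Ω) → BD ℂ Ω, (∀ j W, Hor R.B (tw E Ω) W →
      (ξ j).val W = (∑ i ∈ univ.filter (fun i => e i < e j), R.x i j).val W) ∧
      (finrank E Ω : ℤ) * (2 * R.cF - 2 * finrank E F * R.cE) ≤
        ∑ j, (bnum [ξ j, ξ j] + bnum [R.Kq Ω, ξ j]) := by
  have hp : Set.InjOn (enu e p₀) (Set.Iio (finrank E F)) := card_eq p₀ ▸ enu_inj e p₀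
  refine ⟨fun j => R.ξ (enu e p₀) (e j), fun j W hW => ?_, (R.core H hp).1.trans_eq ?_⟩
  · rw [R.ξ_val H hp (card_eq p₀ ▸ (e j).2) hW, enu_e, sum_enu e p₀ (f := fun i => R.x i j)
      (t := univ.filter fun i => e i < e j) (fun r hr => (mem_range.1 hr).trans (e j).2) fun i => by simp]
  · rw [← sum_enu e p₀ (u := range (finrank E F)) (fun r hr => card_eq p₀ ▸ mem_range.1 hr)
      fun i => by simp [← card_eq p₀]]
    exact sum_congr rfl fun r hr => by simp only [e_enu e p₀ (card_eq p₀ ▸ mem_range.1 hr)]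

variable {d : ℕ} (S : K3 F d)

omit [FiniteDimensional E F] in
theorem hor_L {Θ : BD ℂ E} {m : ℕ} (hΘ : Θ ∈ On R.B) (hm : 0 < m)
    (hz : NumZ (m • nm E Ω S.L - Θ)) (c : F →ₐ[E] Ω) {y : BD ℂ Ω}
    (h : ∀ W, Hor R.B (tw E Ω) W → 1 ≤ y.val W) : 0 ≤ bnum [y, pb (sh ℂ c) S.L] := by
  refine Hor83.horStmt E Ω (tw E Ω) R.B R.bE y _ (∑ a ∈ univ.erase c, pb (sh ℂ a) S.L) Θ m R.dim_Ω
    ((K3n.nef_L S).pb _) (Nef.sum _ fun a _ => (K3n.nef_L S).pb _) hΘ hm ?_ h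
  have h1 := numZ_pb hz (tw E Ω)
  rwa [map_sub, map_nsmul, pb_nm, ← add_sum_erase _ _ (mem_univ c)] at h1

omit [FiniteDimensional E F] in
theorem hor_L_eq {Θ : BD ℂ E} {m : ℕ} (hΘ : Θ ∈ On R.B) (hm : 0 < m)
    (hz : NumZ (m • nm E Ω S.L - Θ)) (c : F →ₐ[E] Ω) {y y' : BD ℂ Ω}
    (h : ∀ W, Hor R.B (tw E Ω) W → y.val W = y'.val W) :
    bnum [pb (sh ℂ c) S.L, y] = bnum [pb (sh ℂ c) S.L, y'] := by
  have h1 := R.hor_L S hΘ hm hz c (y := y - y') fun W hW => by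
    rw [val_sub, h W hW, div_self (val_ne _ _)]
  have h2 := R.hor_L S hΘ hm hz c (y := y' - y) fun W hW => by
    rw [val_sub, h W hW, div_self (val_ne _ _)]
  rw [bnum_sub, bnum_swap y, bnum_swap y'] at h1 h2
  linarith

omit [FiniteDimensional E F] [DecidableEq (F →ₐ[E] Ω)] in
include p₀ in
theorem nm_num (y : BD ℂ F) (a : BD ℂ E) : bnum [nm E Ω y, a] = bnum [y, pb (tw E F) a] :=
  bnum_nm p₀ y [a]

omit [FiniteDimensional E F] [DecidableEq (F →ₐ[E] Ω)] in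
include p₀ in
theorem sh_num (c : F →ₐ[E] Ω) (y : BD ℂ F) (a : BD ℂ E) :
    bnum [pb (sh ℂ c) y, pb (tw E Ω) a] = deg (sh ℂ p₀) * bnum [nm E Ω y, a] := by
  rw [nm_num p₀, ← deg_sh_eq c p₀]
  exact bnum_sh c y [a]

omit [FiniteDimensional E F] [DecidableEq (F →ₐ[E] Ω)] in
include p₀ in
theorem th_pos : 0 < bnum [(nm E Ω S.L : BD ℂ E), nm E Ω S.L] := by
  classical
  have h1 := sh_num p₀ p₀ S.L (nm E Ω S.L)
  rw [pb_nm, bnum_sum2, ← add_sum_erase _ _ (mem_univ p₀), bnum_pb2, S.L_sq] at h1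
  have h2 : 0 ≤ ∑ a ∈ univ.erase p₀, bnum [pb (sh ℂ p₀) S.L, pb (sh ℂ a) S.L] :=
    sum_nonneg fun a _ => bnum_nonneg (by simpa using ⟨(K3n.nef_L S).pb _, (K3n.nef_L S).pb _⟩)
  have h3 : (0 : ℤ) < deg (sh ℂ p₀) := Int.natCast_pos.2 (deg_sh_pos p₀)
  have h4 : (0 : ℤ) < d := Int.natCast_pos.2 (K3n.d_pos S)
  exact (mul_pos_iff_of_pos_left h3).1 (h1 ▸ add_pos_of_pos_of_nonneg (mul_pos h3 h4) h2)

include H p₀ in
/-- **the numerical inequality** -/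
theorem num (h2 : 2 ≤ finrank E F) (hmax : ∀ M : IntermediateField E F, M = ⊥ ∨ M = ⊤)
    (hS : oP S.P ∈ On R.P) {Θ : BD ℂ E} {m : ℕ} (hΘ : Θ ∈ On R.B) (hm : 0 < m)
    (hz : NumZ (m • nm E Ω S.L - Θ)) {c : ℤ} (hc : 0 ≤ c)
    (hc' : 2 * finrank E F * R.cE - 2 * R.cF ≤ c) :
    bnum [kP R.B R.bE, nm E Ω S.L] ≤ 0 ∧
      bnum [kP R.P R.bF, pb (tw E F) (nm E Ω S.L)] ^ 2 ≤ 64 * (finrank E F : ℤ) ^ 12 *
        (c * bnum [(nm E Ω S.L : BD ℂ E), nm E Ω S.L] + 2 * bnum [kP R.B R.bE, nm E Ω S.L] ^ 2 -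
          bnum [kP R.B R.bE, kP R.B R.bE] * bnum [(nm E Ω S.L : BD ℂ E), nm E Ω S.L]) := by
  have := preprimitive p₀ h2 hmax
  obtain ⟨Th, hTh⟩ : ∃ Th : BD ℂ E, Th = nm E Ω S.L := ⟨_, rfl⟩
  obtain ⟨N, hN⟩ : ∃ N, N = deg (sh ℂ p₀) := ⟨_, rfl⟩
  let L : (F →ₐ[E] Ω) → BD ℂ Ω := fun a => pb (sh ℂ a) S.L
  have hN0 : (0 : ℤ) < N := Int.natCast_pos.2 (hN ▸ deg_sh_pos p₀)
  have hg : (finrank E Ω : ℤ) = finrank E F * N := by
    rw [← deg_sh_mul (k := ℂ) p₀, Nat.cast_mul, hN]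
  have hT : 0 < bnum [Th, Th] := hTh ▸ th_pos p₀ S
  have hx : ∀ i j c, i ≠ j → 0 ≤ bnum [L c, R.x i j] := fun i j c h =>
    (num_nonneg (eff_of_nonneg (R.gen.xx_nonneg h)) ((K3n.nef_L S).pb _)).trans_eq
      (bnum_swap _ _ _)
  have hK : ∀ a, bnum [L a, R.Kq Ω] = N * bnum [kP R.B R.bE, Th] := fun a => by
    rw [hN, hTh, bnum_swap (kP _ _)]
    exact sh_num p₀ a S.L _
  have hr : ∀ i c, ∑ j ∈ univ.erase i, bnum [L c, R.x i j] =
      bnum [L c, pb (sh ℂ i) (kP R.P R.bF)] - N * bnum [kP R.B R.bE, Th] := fun i c => by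
    have h1 : bnum [L c, _] = bnum [L c, _] := R.hor_L_eq S hΘ hm hz c fun W hW => R.ram H i hW
    rw [h1, bnum_add2, hK, bnum_sum2, add_sub_cancel_left]
    exact sum_congr rfl fun j _ => by rw [x, xx_comm]
  have hr' : ∀ i, ∑ j ∈ univ.erase i, bnum [L i, R.x i j] = -(N * bnum [kP R.B R.bE, Th]) :=
    fun i => by
      have h1 : bnum [L i, pb (sh ℂ i) (kP R.P R.bF)] = _ := bnum_pb2 _ _ _
      rw [hr, h1, bnum_swap S.L, K3n.k_L S H.kexc hS, mul_zero, zero_sub]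
  have hρ : bnum [kP R.B R.bE, Th] ≤ 0 := by
    have h1 := sum_nonneg fun j (hj : j ∈ univ.erase p₀) => hx p₀ j p₀ (ne_of_mem_erase hj).symm
    rw [hr'] at h1
    nlinarith
  have hQ : 0 ≤ bnum [kP R.P R.bF, pb (tw E F) Th] :=
    num_nonneg (K3n.k_eff S hS _) (hTh ▸ (nef_nm (K3n.nef_L S)).pb _)
  have hΛ : ∑ a, L a = pb (tw E Ω) Th := hTh ▸ (pb_nm S.L).symm
  have hLL : ∀ a, bnum [L a, L a] = N * d := fun a => by
    rw [hN, ← deg_sh_eq a p₀, ← S.L_sq]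
    exact bnum_pb2 _ _ _
  have hHL : ∀ a, bnum [∑ a, L a, L a] = N * bnum [Th, Th] := fun a => by
    rw [hΛ, bnum_swap, hN]
    nth_rewrite 2 [hTh]
    exact sh_num p₀ a S.L _
  have hκ : N * bnum [kP R.P R.bF, pb (tw E F) Th] ≤
      ∑ j ∈ univ.erase p₀, ∑ c, bnum [L c, R.x p₀ j] := by
    rw [sum_comm]
    simp only [hr]
    rw [sum_sub_distrib, ← bnum_sum, hΛ, bnum_swap (pb _ Th), sh_num p₀, nm_num p₀, sum_const,
      nsmul_eq_mul, ← hN]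
    linarith [mul_nonpos_of_nonneg_of_nonpos (Int.natCast_nonneg (#(univ : Finset (F →ₐ[E] Ω))))
      (mul_nonpos_of_nonneg_of_nonpos hN0.le hρ)]
  have hKK : bnum [R.Kq Ω, R.Kq Ω] = finrank E F * N * bnum [kP R.B R.bE, kP R.B R.bE] := by
    rw [bnum_pb2, deg_tower, hg]
  have hG : ∀ (g : Ω ≃ₐ[E] Ω) a b, bnum [L (g • a), L (g • b)] = bnum [L a, L b] := fun g a b => by
    simpa only [List.map, pb_au_sh, L] using bnum_au (k := ℂ) g [L a, L b]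
  have hord : ∀ e : (F →ₐ[E] Ω) ≃ Fin (Fintype.card (F →ₐ[E] Ω)), ∃ ξ : (F →ₐ[E] Ω) → BD ℂ Ω,
      (∀ j c, bnum [L c, ξ j] = ∑ i ∈ univ.filter (fun i => e i < e j), bnum [L c, R.x i j]) ∧
      -(c * (finrank E F * N)) ≤ ∑ j, (bnum [ξ j, ξ j] + bnum [R.Kq Ω, ξ j]) := fun e => by
    obtain ⟨ξ, h3, h4⟩ := R.core' H p₀ e
    refine ⟨ξ, fun j c => (R.hor_L_eq S hΘ hm hz c (h3 j)).trans (bnum_sum2 _ _ _),
      le_trans ?_ h4⟩
    rw [← hg]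
    nlinarith [Int.natCast_nonneg (finrank E Ω)]
  have hd : (0 : ℝ) < d := Nat.cast_pos.2 (K3n.d_pos S)
  have hT' : (0 : ℝ) < bnum [Th, Th] := Int.cast_pos.2 hT
  rw [← hTh, ← neg_sq (bnum [kP R.B R.bE, Th])]
  refine ⟨hρ, real_to_int hd hT ?_⟩
  refine G3Num.num_BD (G := Ω ≃ₐ[E] Ω) L hG ((finrank E F : ℤ) : ℝ) d (bnum [Th, Th] / d ^ 2) N
    ((-bnum [kP R.B R.bE, Th] : ℤ) / d) (bnum [kP R.P R.bF, pb (tw E F) Th] / d)
    ((-bnum [kP R.B R.bE, Th] : ℤ) ^ 2 / bnum [Th, Th] - bnum [kP R.B R.bE, kP R.B R.bE]) c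
    (by rw [card_eq p₀, Int.cast_natCast]) (by exact_mod_cast h2) (by exact_mod_cast hN0)
    (by positivity) hd (fun a => by exact_mod_cast hLL a) (fun a => ?_) (R.Kq Ω)
    (div_nonneg (Int.cast_nonneg (neg_nonneg.2 hρ)) hd.le) (div_nonneg (Int.cast_nonneg hQ) hd.le)
    (Int.cast_nonneg hc) (fun a => ?_) ?_ (fun i j c => bnum [L c, R.x i j])
    (fun i j c h => Int.cast_nonneg (hx i j c h)) (fun i j c => by rw [x, xx_comm])
    (fun i => ?_) p₀ ?_ fun e => ?_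
  · rw [hHL]
    push_cast
    field_simp
  · rw [bnum_swap, hK]
    push_cast
    field_simp
  · rw [hKK]
    push_cast
    refine le_of_eq ?_
    field_simp
    ring
  · rw [← Int.cast_sum, hr']
    push_cast
    refine le_of_eq ?_
    field_simp
  · rw [mul_assoc, div_mul_cancel₀ _ hd.ne']
    exact_mod_cast hκ
  · obtain ⟨ξ, h3, h4⟩ := hord e
    exact ⟨ξ, fun j c => by exact_mod_cast h3 j c, by exact_mod_cast h4⟩

end Run

end Crest.Agent.X262.Surf
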