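import Crest.Agent.X262.Surf.G3
import Crest.Agent.X262.Surf.Unim
import Crest.Agent.X262.RR.All
import Crest.Agent.X262.KV.Srf
import Crest.Agent.X262.Sg1.Main
import Crest.Agent.X262.Pure.Main
import Crest.Agent.X262.Gen.Main
import Crest.Agent.X262.Hor83.KExc
import Crest.Agent.X262.Gal71.Norm
import Crest.Agent.X262.G3Num.Econ
import Crest.Agent.X262.Min33.Out
import Crest.Agent.X262.Int23.K3
import Crest.Agent.X262.Mono15.Main
import Crest.Agent.X262.K3c80.Main
import Crest.Agent.X277.Unf.Main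

/-!
# Row 262, surfaces (helper50): assembly

* `kStmt`   : the minimal model of a K3 function field;
* `g3Stmt`  : the bound for the degree, from the axioms of the cohomology theory.
-/

set_option autoImplicit false

namespace Crest.Agent.X262.Surf

theorem resStmt : ResStmt := fun _ _ _ _ T => X277.Unf.exists_on T

theorem kStmt : KStmt := Min33.kStmt RR.rrStmt RR.serStmt

theorem hyps : Hyps :=
  ⟨RR.serStmt, KV.kvStmt, RR.chiBirStmt, Sg1.flagStmt, Sg1.upStmt, Sg1.lowStmt, Pure.pureStmt,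
    Mono15.monoStmt, resStmt, Hor83.kExcStmt⟩

theorem hyps2 {C : Coh.Th} (A : C.Ax) : Hyps2 :=
  ⟨hyps, RR.rrStmt, Gen.genStmt, Mono15.cmpStmt, Gal71.normStmt, K3c.k3ChiStmt RR.rrStmt,
    Int23.trkStmt A (Min33.minStmt RR.rrStmt RR.serStmt), kStmt, unimStmt A,
    G3Num.econStmt (Min33.thMinStmt RR.rrStmt RR.serStmt resStmt) RR.rrStmt RR.serStmt KV.kvStmt
      (unimStmt A)⟩

/-- **G3** -/
theorem g3Stmt {C : Coh.Th} (A : C.Ax) : G3Stmt := g3_of (hyps2 A)

end Crest.Agent.X262.Surf
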